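import Mathlib
import Vale.Agent.P245.Boot.Conc

open MeasureTheory
open scoped ENNReal RealInnerProductSpace ContDiff

namespace Vale.Agent.Results.P245.LogSobolev

/-- Log-Sobolev inequality with constant `O(a² n^(1/4))` for linearly subgaussian log-concave
measures, together with the underlying concentration of Lipschitz functions. -/
theorem result :
    (∃ C : ℝ, 0 < C ∧ ∀ (n : ℕ) (ρ : EuclideanSpace ℝ (Fin n) → ℝ) (a : ℝ),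
      Measurable ρ → (∀ x, 0 ≤ ρ x) →
      (∀ x y, ρ x * ρ y ≤ ρ ((2 : ℝ)⁻¹ • (x + y)) ^ 2) →
      ∀ (μ : Measure (EuclideanSpace ℝ (Fin n))),
      μ = volume.withDensity (fun x => ENNReal.ofReal (ρ x)) → μ Set.univ = 1 → 0 < a →
      (∀ θ : EuclideanSpace ℝ (Fin n), ‖θ‖ = 1 →
        ∫⁻ x, ENNReal.ofReal (Real.exp (⟪x, θ⟫ ^ 2 / a ^ 2)) ∂μ ≤ 2) →
      ∀ f : EuclideanSpace ℝ (Fin n) → ℝ, ContDiff ℝ ∞ f → HasCompactSupport f →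
        (∫ x, f x ^ 2 * Real.log (f x ^ 2) ∂μ)
            - (∫ x, f x ^ 2 ∂μ) * Real.log (∫ x, f x ^ 2 ∂μ)
          ≤ C * a ^ 2 * (n : ℝ) ^ ((1 : ℝ) / 4) * ∫ x, ‖fderiv ℝ f x‖ ^ 2 ∂μ) ∧
    ∃ C : ℝ, 0 < C ∧ ∀ (n : ℕ) (ρ : EuclideanSpace ℝ (Fin n) → ℝ) (a : ℝ),
      Measurable ρ → (∀ x, 0 ≤ ρ x) →
      (∀ x y, ρ x * ρ y ≤ ρ ((2 : ℝ)⁻¹ • (x + y)) ^ 2) →
      ∀ (μ : Measure (EuclideanSpace ℝ (Fin n))),
      μ = volume.withDensity (fun x => ENNReal.ofReal (ρ x)) → μ Set.univ = 1 → 0 < a →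
      (∀ θ : EuclideanSpace ℝ (Fin n), ‖θ‖ = 1 →
        ∫⁻ x, ENNReal.ofReal (Real.exp (⟪x, θ⟫ ^ 2 / a ^ 2)) ∂μ ≤ 2) →
      ∀ g : EuclideanSpace ℝ (Fin n) → ℝ, LipschitzWith 1 g →
      ∀ m : ℝ, 1 / 2 ≤ μ {x | g x ≤ m} → ∀ r : ℝ, 0 ≤ r →
        μ {x | m + r ≤ g x} ≤ ENNReal.ofReal (Real.exp (1 -
          max (r ^ 2 / (a ^ 2 * (n : ℝ) ^ ((1 : ℝ) / 4)))
            (min (r ^ 4 / (n * a ^ 4)) (r ^ 2 / a ^ 2)) / C)) := by
  refine ⟨Vale.Agent.P245.Boot.lsi_quarter, ?_⟩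
  obtain ⟨K, hK, hconc⟩ := Vale.Agent.P245.Boot.conc_quarter
  refine ⟨max K (10 ^ 8), lt_max_of_lt_left hK, ?_⟩
  intro n ρ a hρm hρ0 hmid μ hμ hμ1 ha hsub g hg m hm r hr
  have : IsProbabilityMeasure μ := ⟨hμ1⟩
  set Q := r ^ 2 / (a ^ 2 * (n : ℝ) ^ ((1 : ℝ) / 4)) with hQ
  set Λ := min (r ^ 4 / (n * a ^ 4)) (r ^ 2 / a ^ 2) with hΛ
  have hΛ0 : 0 ≤ Λ := le_min (by positivity) (by positivity)
  have hQ0 : 0 ≤ Q := by positivity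
  rcases le_total Q Λ with h | h
  · rw [max_eq_right h]
    refine (Vale.Agent.P245.Sub.quartic n ρ a hρm hρ0 hmid μ hμ hμ1 ha hsub g hg m hm r hr).trans
      (ENNReal.ofReal_le_ofReal (Real.exp_le_exp.2 (sub_le_sub_left ?_ 1)))
    exact div_le_div_of_nonneg_left hΛ0 (by norm_num) (le_max_right _ _)
  rw [max_eq_left h]
  rcases Nat.eq_zero_or_pos n with rfl | hn
  · refine prob_le_one.trans ?_
    rw [← ENNReal.ofReal_one]
    refine ENNReal.ofReal_le_ofReal (Real.one_le_exp ?_)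
    simp [hQ, Real.zero_rpow]
  have hm' : 1 / 2 ≤ μ.real {x | g x ≤ m} := by
    rw [Measure.real, ← ENNReal.ofReal_le_iff_le_toReal (measure_ne_top _ _)]
    refine le_trans (le_of_eq ?_) hm
    rw [ENNReal.ofReal_div_of_pos two_pos, ENNReal.ofReal_one, ENNReal.ofReal_ofNat]
  have h2 := hconc n ρ a hn hρm hρ0 hmid μ hμ ha hsub g hg m hm' r hr
  rw [← ofReal_measureReal (μ := μ)]
  refine ENNReal.ofReal_le_ofReal (h2.trans (Real.exp_le_exp.2 (sub_le_sub_left ?_ 1)))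
  rw [hQ, div_div, mul_comm K]
  exact div_le_div_of_nonneg_left (sq_nonneg r) (by positivity)
    (mul_le_mul_of_nonneg_left (le_max_left _ _) (by positivity))

end Vale.Agent.Results.P245.LogSobolev
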